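import Vale.Agent.P352X.R.ELL.A
import Vale.Agent.P352X.R.TWO.Ft

/-!
# P352Z, row ELL: the Fourier transform of the derivative along `a` has dense range (helper20)
-/

set_option linter.all false

noncomputable section

open MeasureTheory Filter Topology Complex Set
open scoped SchwartzMap ComplexConjugate ENNReal NNReal LineDeriv

namespace Vale.Agent.P352X.ZZ.Elz

open Vale.Agent.P352.GF Vale.Agent.P352.BW Vale.Agent.P352.H496 Vale.Agent.P352.H755
open Vale.Agent.P352.H246 (linv isLor_linv box In)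
open SN Vale.Agent.P352X.El

/-- the Fourier transform of the derivative along `a` -/
def fa (f : Fn) (p : V) : ℂ := -(I * be p) * ft f p

lemma fa_eq (g : Sch) : fa (ev g) = ft (ev (∂_{va} g)) := funext fun p => by
  rw [ft_der, md_va', fa]

lemma mem_fa {f : Fn} (hf : IsTest f) : MemLp (fa f) 2 (volume.restrict Fc) := by
  obtain ⟨g, rfl⟩ := hf
  rw [fa_eq]
  exact mem_ft ⟨_, rfl⟩

theorem exists_Fa : ∃ F : Sch →L[ℂ] LF, DenseRange F ∧
    ∀ f, F f =ᵐ[volume.restrict Fc] fa (ev f) := by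
  obtain ⟨F, hd, hF⟩ := El.exists_F
  obtain ⟨g, -, hg⟩ := Vale.Agent.P352X.Two.exists_g0
  have h1 : ∀ f, (F ∘L LineDeriv.lineDerivOpCLM ℂ Sch va) f =ᵐ[volume.restrict Fc] fa (ev f) :=
    fun f => fa_eq f ▸ hF _
  refine ⟨_, ?_, h1⟩
  generalize F ∘L LineDeriv.lineDerivOpCLM ℂ Sch va = G at h1
  have hm : Bd (fa (ev g)) := fa_eq g ▸ Vale.Agent.P352X.Two.bd_ft ⟨_, rfl⟩
  have : (LinearMap.range G.toLinearMap).topologicalClosure = ⊤ := by
    rw [Submodule.topologicalClosure_eq_top_iff, Submodule.eq_bot_iff]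
    intro u hu
    have h2 : mulL hm.cj u = 0 := hd.eq_zero_of_inner_right ℂ fun f => by
      rw [← hu _ ⟨ST.cnv volume g f, rfl⟩, L2.inner_def, L2.inner_def]
      refine integral_congr_ae ?_
      filter_upwards [hF f, h1 (ST.cnv volume g f), mulL_coe hm.cj u] with p a1 a2 a3
      rw [a1, ContinuousLinearMap.coe_coe, a2, a3]
      simp only [fa, Vale.Agent.P352X.Two.ft_cnv, RCLike.inner_apply, map_mul, smul_eq_mul]
      ring
    refine Lp.ext ?_
    filter_upwards [h2 ▸ mulL_coe hm.cj u, Lp.coeFn_zero ℂ 2 (volume.restrict Fc),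
      ae_restrict_mem meas_Fc] with p a1 a2 a3
    rw [a2] at a1 ⊢
    have b : fa (ev g) p ≠ 0 := mul_ne_zero (neg_ne_zero.2 (mul_ne_zero I_ne_zero
      (ofReal_ne_zero.2 ((mem_Fc p).1 a3).1.ne'))) (hg p)
    exact (mul_eq_zero.1 a1.symm).resolve_left (by simpa using b)
  exact Submodule.dense_iff_topologicalClosure_eq_top.2 this

lemma fa_sim {s κ : ℝ} {L : Ix → V} (hs : 0 < s) (hL : IsLor L) (hκ : sim 1 L 0 va = κ • va)
    (a : V) (f : Fn) (q : V) :
    (s ^ 2 : ℝ) * cexp (I * mdot q a) * fa (fun x => f (sim s L a x)) (sim s (linv L) 0 q) =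
      (s⁻¹ * κ : ℝ) * fa f q := by
  have e : be (sim s (linv L) 0 q) = s * κ * be q := by
    rw [← md_va', ← md_va' (z := q), sim_smul, md_smul_l, mul_assoc, ← md_smul q, ← hκ]
    congr 1
    conv_rhs => rw [← sim_linv hL q, (conf_lor hL).md, one_mul]
  have := ft_sim hs hL a f q
  have h0 : (s : ℂ) ≠ 0 := ofReal_ne_zero.2 hs.ne'
  rw [fa, fa, e, mul_assoc, mul_left_comm (cexp _), this]
  push_cast
  field_simp

end Vale.Agent.P352X.ZZ.Elz

end
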